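import Mathlib
import Vale.Agent.P272.K.LIN.Hol

/-!
# P290Z, part III (K): superposition operators on Hoelder spaces
-/

open scoped ContDiff Topology NNReal
open Set Filter Metric Asymptotics

noncomputable section

namespace Vale.Agent.P290Z.Kur.Nem

open Vale.Agent.P272.K.LIN

variable {Y : Type} {w : Y → Y → ℝ≥0} {V : Type} [NormedAddCommGroup V] [NormedSpace ℝ V]
  [FiniteDimensional ℝ V] {W : Type} [NormedAddCommGroup W] [NormedSpace ℝ W] {Φ : V → W}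

omit [FiniteDimensional ℝ V] in
theorem der (h : ContDiff ℝ ∞ Φ) : ContDiff ℝ ∞ (fderiv ℝ Φ) := h.fderiv_right (m := ∞) le_rfl

omit [FiniteDimensional ℝ V] in
theorem has (h : ContDiff ℝ ∞ Φ) (p : V) : HasFDerivAt Φ (fderiv ℝ Φ p) p :=
  (h.differentiable (by simp) p).hasFDerivAt

theorem lip (h : ContDiff ℝ ∞ Φ) (R : ℝ) : ∃ C, 0 ≤ C ∧ ∀ p q, ‖p‖ ≤ R → ‖q‖ ≤ R →
    ‖Φ p - Φ q‖ ≤ C * ‖p - q‖ := by
  obtain ⟨C, hC⟩ := (isCompact_closedBall (0 : V) R).exists_bound_of_continuousOn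
    (der h).continuous.continuousOn
  exact ⟨|C|, abs_nonneg C, fun p q hp hq =>
    (convex_closedBall (0 : V) R).norm_image_sub_le_of_norm_hasFDerivWithin_le
      (fun x _ => (has h x).hasFDerivWithinAt) (fun x hx => (hC x hx).trans (le_abs_self C))
      (mem_closedBall_zero_iff.2 hq) (mem_closedBall_zero_iff.2 hp)⟩

/-- the superposition operator -/
def sup (h : ContDiff ℝ ∞ Φ) (a : Hol w V) : Hol w W where
  toFun x := Φ (a x)
  bdd' := ((isCompact_closedBall (0 : V) ‖a‖).exists_bound_of_continuousOn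
    h.continuous.continuousOn).imp fun _ hC x =>
      hC _ (mem_closedBall_zero_iff.2 (a.norm_apply_le x))
  hol' := by
    obtain ⟨C, h0, hC⟩ := lip h ‖a‖
    refine ⟨C * ‖a‖, fun x y => (hC _ _ (a.norm_apply_le x) (a.norm_apply_le y)).trans ?_⟩
    rw [mul_assoc]
    exact mul_le_mul_of_nonneg_left (a.norm_sub_le' x y) h0

/-- the remainder of order two -/
def rem (Φ : V → W) (p k : V) : W := Φ (p + k) - Φ p - fderiv ℝ Φ p k

theorem rem_snd (h : ContDiff ℝ ∞ Φ) (R : ℝ) : ∃ C, 0 ≤ C ∧ ∀ ε ≤ (1 : ℝ), ∀ p k k', ‖p‖ ≤ R →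
    ‖k‖ ≤ ε → ‖k'‖ ≤ ε → ‖rem Φ p k - rem Φ p k'‖ ≤ C * ε * ‖k - k'‖ := by
  obtain ⟨C, h0, hC⟩ := lip (der h) (R + 1)
  refine ⟨C, h0, fun ε hε p k k' hp hk hk' =>
    (convex_closedBall (0 : V) ε).norm_image_sub_le_of_norm_hasFDerivWithin_le (f := rem Φ p)
      (f' := fun k => fderiv ℝ Φ (p + k) - fderiv ℝ Φ p) (fun x _ => ?_) (fun x hx => ?_)
      (mem_closedBall_zero_iff.2 hk') (mem_closedBall_zero_iff.2 hk)⟩
  · exact ((((hasFDerivAt_comp_add_left p).2 (has h (p + x))).sub_const (Φ p)).sub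
      (fderiv ℝ Φ p).hasFDerivAt).hasFDerivWithinAt
  · have h1 := mem_closedBall_zero_iff.1 hx
    refine (hC _ _ ((norm_add_le _ _).trans (by linarith)) (by linarith)).trans ?_
    rw [add_sub_cancel_left]
    exact mul_le_mul_of_nonneg_left h1 h0

theorem rem_le (h : ContDiff ℝ ∞ Φ) (R : ℝ) : ∃ C, 0 ≤ C ∧ ∀ ε ≤ (1 : ℝ), ∀ p k, ‖p‖ ≤ R →
    ‖k‖ ≤ ε → ‖rem Φ p k‖ ≤ C * ε ^ 2 := by
  obtain ⟨C, h0, hC⟩ := rem_snd h R
  refine ⟨C, h0, fun ε hε p k hp hk => ?_⟩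
  have h1 := (norm_nonneg k).trans hk
  have h2 := hC ε hε p k 0 hp hk (by simpa using h1)
  rw [show rem Φ p 0 = 0 by simp [rem], sub_zero, sub_zero] at h2
  rw [sq, ← mul_assoc]
  exact h2.trans (mul_le_mul_of_nonneg_left hk (by positivity))

theorem rem_fst (h : ContDiff ℝ ∞ Φ) (R : ℝ) : ∃ C, 0 ≤ C ∧ ∀ ε ≤ (1 : ℝ), ∀ p p' k, ‖p‖ ≤ R →
    ‖p'‖ ≤ R → ‖k‖ ≤ ε → ‖rem Φ p k - rem Φ p' k‖ ≤ C * ε ^ 2 * ‖p - p'‖ := by
  obtain ⟨C, h0, hC⟩ := rem_le (der h) R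
  refine ⟨C, h0, fun ε hε p p' k hp hp' hk =>
    (convex_closedBall (0 : V) R).norm_image_sub_le_of_norm_hasFDerivWithin_le
      (f := fun p => rem Φ p k) (f' := fun p => rem (fderiv ℝ Φ) p k) (fun x _ => ?_)
      (fun x hx => hC ε hε x k (mem_closedBall_zero_iff.1 hx) hk)
      (mem_closedBall_zero_iff.2 hp') (mem_closedBall_zero_iff.2 hp)⟩
  have h1 := (h.contDiffAt (x := x)).isSymmSndFDerivAt
    (by simpa using (show (2 : WithTop ℕ∞) ≤ ∞ from WithTop.coe_le_coe.2 le_top))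
  have h2 := (((hasFDerivAt_comp_add_right k).2 (has h (x + k))).sub (has h x)).sub
    ((has (der h) x).clm_apply (hasFDerivAt_const k x))
  refine (h2.congr_fderiv ?_).hasFDerivWithinAt
  ext v
  simp [rem, h1.eq v k]

theorem has_sup (h : ContDiff ℝ ∞ Φ) (a : Hol w V) : HasFDerivAt (sup h)
    (Hol.bilL (ContinuousLinearMap.id ℝ (V →L[ℝ] W)) (sup (der h) a)) a := by
  obtain ⟨A, hA, h1⟩ := rem_le h ‖a‖
  obtain ⟨B, hB, h2⟩ := rem_fst h ‖a‖
  obtain ⟨C, hC, h3⟩ := rem_snd h ‖a‖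
  rw [hasFDerivAt_iff_isLittleO_nhds_zero]
  refine IsBigO.trans_isLittleO (IsBigO.of_bound (A + (B * ‖a‖ + C)) ?_)
    (isLittleO_norm_pow_id one_lt_two)
  filter_upwards [closedBall_mem_nhds (0 : Hol w V) one_pos] with k hk
  have hk := mem_closedBall_zero_iff.1 hk
  rw [norm_pow, norm_norm, add_mul]
  refine Hol.norm_le_of (by positivity) (by positivity)
    (fun x => h1 _ hk _ _ (a.norm_apply_le x) (k.norm_apply_le x)) fun x y => ?_
  have e1 := (h2 _ hk _ _ _ (a.norm_apply_le x) (a.norm_apply_le y) (k.norm_apply_le x)).trans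
    (mul_le_mul_of_nonneg_left (a.norm_sub_le' x y) (by positivity))
  have e2 := (h3 _ hk _ _ _ (a.norm_apply_le y) (k.norm_apply_le x) (k.norm_apply_le y)).trans
    (mul_le_mul_of_nonneg_left (k.norm_sub_le' x y) (by positivity))
  refine (norm_sub_le_norm_sub_add_norm_sub (rem Φ (a x) (k x)) (rem Φ (a y) (k x))
    (rem Φ (a y) (k y))).trans ((add_le_add e1 e2).trans (le_of_eq ?_))
  ring

theorem contDiff_sup (n : ℕ) : ∀ {W : Type} [NormedAddCommGroup W] [NormedSpace ℝ W] {Φ : V → W}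
    (h : ContDiff ℝ ∞ Φ), ContDiff ℝ n (sup (w := w) h) := by
  induction n with
  | zero =>
    intro W _ _ Φ h
    exact contDiff_zero.2 (continuous_iff_continuousAt.2 fun a => (has_sup h a).continuousAt)
  | succ n ih =>
    intro W _ _ Φ h
    exact contDiff_succ_iff_hasFDerivAt.2
      ⟨_, (Hol.bilL (ContinuousLinearMap.id ℝ (V →L[ℝ] W))).contDiff.comp (ih (der h)), has_sup h⟩

end Vale.Agent.P290Z.Kur.Nem
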